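import Vale.Agent.P082.Scope.Sums
import Vale.Agent.P082.Iface

/-!
# P082: without abelian projections there are matrix units of every size
-/

namespace Vale.Agent.P082.Scope

open scoped InnerProductSpace
open Vale.Agent.P078.General Vale.Agent.P132.Homog

universe u

variable {H : Type u} [NormedAddCommGroup H] [InnerProductSpace ℂ H] [CompleteSpace H]
variable {M : VonNeumannAlgebra H} {ι : Type} [Fintype ι]

/-- Partial isometries with one initial and orthogonal final projections. -/
structure IsBlock (M : VonNeumannAlgebra H) (w : ι → H →L[ℂ] H) : Prop where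
  mem : ∀ a, w a ∈ M
  pi : ∀ a, w a * (star (w a) * w a) = w a
  src : ∀ a b, star (w a) * w a = star (w b) * w b
  orth : ∀ a b, a ≠ b → star (w a) * w b = 0
  ne_zero : ∀ a, w a ≠ 0

/-- The support of a block. -/
noncomputable def supp (w : ι → H →L[ℂ] H) : H →L[ℂ] H := ∑ a, w a * star (w a)

variable {w : ι → H →L[ℂ] H}

theorem IsBlock.supp_mul (h : IsBlock M w) (a : ι) : supp w * w a = w a := by
  rw [supp, Finset.sum_mul, Finset.sum_eq_single a
    (fun b _ hb => by rw [mul_assoc, h.orth b a hb, mul_zero])
    (fun h => absurd (Finset.mem_univ a) h), mul_assoc, h.pi a]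

theorem IsBlock.mul_supp (h : IsBlock M w) (a : ι) : star (w a) * supp w = star (w a) := by
  have := congrArg star (h.supp_mul a)
  rwa [star_mul, supp, star_sum, Finset.sum_congr rfl fun b _ => by rw [star_mul, star_star]] at this

theorem IsBlock.isStarProjection_supp (h : IsBlock M w) : IsStarProjection (supp w) := by
  refine ⟨?_, isSelfAdjoint_sum _ fun a _ => IsSelfAdjoint.mul_star_self (w a)⟩
  show supp w * supp w = supp w
  conv_lhs => arg 2; rw [supp]
  rw [Finset.mul_sum, supp]
  exact Finset.sum_congr rfl fun a _ => by rw [← mul_assoc, ← supp, h.supp_mul a]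

omit [Fintype ι] in
theorem IsBlock.norm_le (h : IsBlock M w) (a : ι) : ‖w a‖ ≤ 1 :=
  ContinuousLinearMap.opNorm_le_bound _ zero_le_one fun u => by
    rw [one_mul, norm_pi_apply (h.pi a)]
    exact norm_proj_le ⟨by rw [IsIdempotentElem, mul_assoc, h.pi a],
      IsSelfAdjoint.star_mul_self _⟩ u

omit [Fintype ι] in
theorem IsBlock.unit_mul [DecidableEq ι] (h : IsBlock M w) (a b c d : ι) :
    w a * star (w b) * (w c * star (w d)) = if b = c then w a * star (w d) else 0 := by
  rw [mul_assoc, ← mul_assoc (star (w b))]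
  split_ifs with hbc
  · subst hbc
    rw [← mul_assoc, h.src b a, h.pi a]
  · rw [h.orth b c hbc, zero_mul, mul_zero]

/-- A block of every size below a projection that is not zero. -/
theorem exists_block (hna : NoAbelianProjection M) {r : H →L[ℂ] H} (hr : IsStarProjection r)
    (hrM : r ∈ M) (hr0 : r ≠ 0) (K : ℕ) :
    ∃ w : Fin (K + 1) → H →L[ℂ] H, IsBlock M w ∧ ∀ a, r * w a = w a := by
  induction K with
  | zero =>
    refine ⟨fun _ => r, ⟨fun _ => hrM, fun _ => ?_, fun _ _ => rfl,
      fun a b h => absurd (Fin.ext (by omega)) h, fun _ => hr0⟩, fun _ => hr.isIdempotentElem.eq⟩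
    rw [hr.isSelfAdjoint.star_eq, hr.isIdempotentElem.eq, hr.isIdempotentElem.eq]
  | succ K ih =>
    obtain ⟨w, hw, hwr⟩ := ih
    set p := star (w 0) * w 0 with hp
    have hpp : IsStarProjection p :=
      ⟨by rw [IsIdempotentElem, hp, mul_assoc, hw.pi], IsSelfAdjoint.star_mul_self _⟩
    have hp0 : p ≠ 0 := fun h0 => hw.ne_zero 0 (by rw [← hw.pi 0, ← hp, h0, mul_zero])
    obtain ⟨u, huM, hu0, hupi, hpu, hup, huu⟩ :=
      exists_halve hna hpp (mul_mem (star_mem (hw.mem 0)) (hw.mem 0)) hp0
    set v : Bool → H →L[ℂ] H := fun t => if t then u else star u * u with hv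
    have hpv : ∀ t, p * v t = v t := by
      intro t
      cases t
      · show p * (star u * u) = star u * u
        have := congrArg star hup
        rw [star_mul, hpp.isSelfAdjoint.star_eq] at this
        rw [← mul_assoc, this]
      · exact hpu
    have hsrc : ∀ t, star (v t) * v t = star u * u := by
      intro t
      cases t
      · show star (star u * u) * (star u * u) = star u * u
        rw [star_mul, star_star, mul_assoc, hupi]
      · rfl
    have horth : ∀ t t', t ≠ t' → star (v t) * v t' = 0 := by
      intro t t' htt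
      cases t <;> cases t'
      · exact absurd rfl htt
      · show star (star u * u) * u = 0
        rw [star_mul, star_star, mul_assoc, huu, mul_zero]
      · show star u * (star u * u) = 0
        rw [← mul_assoc, ← star_mul, huu, star_zero, zero_mul]
      · exact absurd rfl htt
    have hwp : ∀ a, star (w a) * w a = p := fun a => hw.src a 0
    have hz : ∀ z : Fin (K + 1) × Bool, star (w z.1 * v z.2) * (w z.1 * v z.2) = star u * u :=
      fun z => by
        rw [star_mul, mul_assoc, ← mul_assoc (star (w z.1)), hwp, hpv, hsrc]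
    obtain ⟨e⟩ : Nonempty (Fin (K + 1 + 1) ↪ Fin (K + 1) × Bool) :=
      Function.Embedding.nonempty_of_card_le (by simp)
    refine ⟨fun a => w (e a).1 * v (e a).2, ⟨fun a => ?_, fun a => ?_, fun a b => ?_,
      fun a b hab => ?_, fun a h0 => hu0 ?_⟩, fun a => by rw [← mul_assoc, hwr]⟩
    · refine mul_mem (hw.mem _) ?_
      cases (e a).2
      · exact mul_mem (star_mem huM) huM
      · exact huM
    · rw [hz, mul_assoc]
      cases (e a).2
      · show w _ * (star u * u * (star u * u)) = _
        rw [mul_assoc (star u), hupi]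
        rfl
      · show w _ * (u * (star u * u)) = _
        rw [hupi]
        rfl
    · rw [hz, hz]
    · rw [star_mul, mul_assoc, ← mul_assoc (star (w (e a).1))]
      rcases eq_or_ne (e a).1 (e b).1 with h1 | h1
      · rw [h1, hwp, hpv, horth _ _ fun h2 => hab (e.injective (Prod.ext h1 h2))]
      · rw [hw.orth _ _ h1, zero_mul, mul_zero]
    · have h1 := hz (e a)
      rw [show w (e a).1 * v (e a).2 = 0 from h0, star_zero, zero_mul] at h1
      rw [← hupi, ← h1, mul_zero]

/-- Without abelian projections the identity splits into any number of equivalent projections. -/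
theorem exists_units (hna : NoAbelianProjection M) (K : ℕ) (hK : 0 < K) :
    ∃ e : Fin K → Fin K → Alg M, IsUnits M e := by
  classical
  obtain ⟨K, rfl⟩ := Nat.exists_eq_succ_of_ne_zero hK.ne'
  set S : Set (Set (Fin (K + 1) → H →L[ℂ] H)) :=
    {B | (∀ w ∈ B, IsBlock M w) ∧ ∀ w ∈ B, ∀ w' ∈ B, w ≠ w' → supp w * supp w' = 0} with hS
  obtain ⟨B, ⟨hB1, hB2⟩, hmax⟩ := zorn_subset S fun c hc hchain => by
    refine ⟨⋃₀ c, ⟨?_, ?_⟩, fun a ha => Set.subset_sUnion_of_mem ha⟩
    · rintro w ⟨a, ha, hw⟩
      exact (hc ha).1 w hw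
    · rintro w ⟨a, ha, hw⟩ w' ⟨b, hb, hw'⟩ hne
      rcases hchain.total ha hb with h | h
      · exact (hc hb).2 w (h hw) w' hw' hne
      · exact (hc ha).2 w hw w' (h hw') hne
  have hd : ∀ a b : Fin (K + 1), IsDiag (fun i : B => supp i.1) fun i => i.1 a * star (i.1 b) :=
    fun a b =>
    { proj := fun i => (hB1 _ i.2).isStarProjection_supp
      orth := fun i j hij => hB2 _ i.2 _ j.2 fun h => hij (Subtype.ext h)
      left := fun i => by rw [← mul_assoc, (hB1 _ i.2).supp_mul]
      right := fun i => by rw [mul_assoc, (hB1 _ i.2).mul_supp]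
      norm_le := fun i => (norm_mul_le _ _).trans (mul_le_one₀ ((hB1 _ i.2).norm_le a)
        (norm_nonneg _) (by rw [norm_star]; exact (hB1 _ i.2).norm_le b)) }
  set E : Fin (K + 1) → Fin (K + 1) → H →L[ℂ] H := fun a b => (hd a b).sum with hE
  have hEM : ∀ a b, E a b ∈ M := fun a b =>
    (hd a b).sum_mem fun i => mul_mem ((hB1 _ i.2).mem a) (star_mem ((hB1 _ i.2).mem b))
  have hmul : ∀ a b c d, E a b * E c d = if b = c then E a d else 0 := by
    intro a b c d
    rw [hE]
    simp only [IsDiag.sum_mul (hd a b) (hd c d)]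
    refine ContinuousLinearMap.ext fun v => ?_
    rw [IsDiag.sum_apply]
    simp only [fun i : B => (hB1 _ i.2).unit_mul a b c d]
    split_ifs with hbc
    · rw [IsDiag.sum_apply]
    · simp
  have hstar : ∀ a b, star (E a b) = E b a := by
    intro a b
    rw [hE]
    simp only [IsDiag.star_sum (hd a b)]
    refine ContinuousLinearMap.ext fun v => ?_
    rw [IsDiag.sum_apply, IsDiag.sum_apply]
    simp only [star_mul, star_star]
  set z := ∑ a, E a a with hzdef
  have hz : IsStarProjection z := ⟨by
    show z * z = z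
    simp [hzdef, Finset.sum_mul, Finset.mul_sum, hmul],
    isSelfAdjoint_sum _ fun a _ => hstar a a⟩
  have hz1 : z = 1 := by
    by_contra hne
    obtain ⟨w, hw, hwr⟩ := exists_block hna hz.one_sub
      (sub_mem (one_mem M) (sum_mem fun a _ => hEM a a)) (sub_ne_zero.2 (Ne.symm hne)) K
    have hzw : ∀ i : B, z * supp i.1 = supp i.1 := by
      intro i
      refine ContinuousLinearMap.ext fun v => ?_
      rw [hzdef, Finset.sum_mul, sum_apply, supp, sum_apply]
      refine Finset.sum_congr rfl fun a _ => ?_
      rw [mul_apply_eq_comp, hE, IsDiag.sum_apply, tsum_eq_single i fun j hj => ?_]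
      · rw [← mul_apply_eq_comp, mul_assoc, ← supp, (hB1 _ i.2).mul_supp]
      · rw [← mul_apply_eq_comp, ← (hd a a).right j, mul_assoc, ← supp,
          hB2 _ j.2 _ i.2 (fun h => hj (Subtype.ext h)), mul_zero, zero_apply]
    have horth : ∀ w' ∈ B, supp w * supp w' = 0 ∧ supp w' * supp w = 0 := by
      intro w' hw'
      have h1 : (1 - z) * supp w = supp w := by
        rw [supp, Finset.mul_sum]
        exact Finset.sum_congr rfl fun a _ => by rw [← mul_assoc, hwr]
      have h2 : (1 - z) * supp w' = 0 := by rw [sub_mul, one_mul, hzw ⟨w', hw'⟩, sub_self]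
      have h3 : supp w' * supp w = 0 := by
        have h4 := congrArg star h2
        rw [star_mul, hz.one_sub.isSelfAdjoint.star_eq,
          (hB1 _ hw').isStarProjection_supp.isSelfAdjoint.star_eq, star_zero] at h4
        rw [← h1, ← mul_assoc, h4, zero_mul]
      refine ⟨?_, h3⟩
      have := congrArg star h3
      rwa [star_mul, hw.isStarProjection_supp.isSelfAdjoint.star_eq,
        (hB1 _ hw').isStarProjection_supp.isSelfAdjoint.star_eq, star_zero] at this
    have hin : insert w B ∈ S := by
      refine ⟨?_, ?_⟩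
      · rintro a (rfl | ha)
        exacts [hw, hB1 a ha]
      · rintro a (rfl | ha) b (rfl | hb) hab
        exacts [absurd rfl hab, (horth b hb).1, (horth a ha).2, hB2 a ha b hb hab]
    have hwB : w ∈ B := hmax hin (Set.subset_insert w B) (Set.mem_insert w B)
    have h0 : supp w = 0 := (hw.isStarProjection_supp.isIdempotentElem.eq).symm.trans (horth w hwB).1
    exact hw.ne_zero 0 (by rw [← hw.supp_mul 0, h0, zero_mul])
  refine ⟨fun a b => ⟨E a b, hEM a b⟩, fun a b c d => ?_, fun a b => Subtype.ext (hstar a b), ?_⟩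
  · apply Subtype.ext
    show E a b * E c d = _
    rw [hmul]
    split_ifs <;> rfl
  · apply Subtype.ext
    rw [AddSubmonoidClass.coe_finsetSum]
    exact hz1

end Vale.Agent.P082.Scope
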