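import Vale.Agent.P082.Scope.Amplify
import Vale.Agent.P082.Scope.Units

/-!
# P082: type II₁ algebras in any representation
-/

namespace Vale.Agent.P082.Scope

universe u

/-- The interface theorem gives vanishing for every type II₁ algebra on every Hilbert space. -/
theorem vanishes_typeII (hMain : Iface.StmtMain.{u}) {H : Type u} [NormedAddCommGroup H]
    [InnerProductSpace ℂ H] [CompleteSpace H] (M : VonNeumannAlgebra H)
    (hT : HasNormalTraces M) (hC : NoAbelianProjection M) (n : ℕ) : Vanishes M n :=
  vanishes_of_ampAlg (hMain (Seq H) (ampAlg M) (hasTracialVectors_ampAlg hT)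
    (fun K hK => exists_units_ampAlg (exists_units hC K hK)) n)

end Vale.Agent.P082.Scope
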