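import Mathlib

/-!
# P082: type II₁ von Neumann algebras
-/

namespace Vale.Agent.P082.Scope

universe u

variable {H : Type u} [NormedAddCommGroup H] [InnerProductSpace ℂ H] [CompleteSpace H]

/-- No nonzero projection of `M` has an abelian corner. -/
def NoAbelianProjection (M : VonNeumannAlgebra H) : Prop :=
  ∀ p ∈ M, IsStarProjection p → p ≠ 0 →
    ∃ x ∈ M, ∃ y ∈ M, (p * x * p) * (p * y * p) ≠ (p * y * p) * (p * x * p)

/-- The normal tracial positive functionals `x ↦ ∑ n, ⟪ξ n, x (ξ n)⟫` separate `M`. -/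
def HasNormalTraces (M : VonNeumannAlgebra H) : Prop :=
  ∀ y ∈ M, y ≠ 0 → ∃ ξ : ℕ → H, Summable (fun n => ‖ξ n‖ ^ 2) ∧
    (∀ x ∈ M, ∑' n, ‖star x (ξ n)‖ ^ 2 = ∑' n, ‖x (ξ n)‖ ^ 2) ∧ ∃ n, y (ξ n) ≠ 0

end Vale.Agent.P082.Scope
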