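import Vale.Agent.P082.Scope.Halve

/-!
# P082: strongly convergent sums over orthogonal projections
-/

namespace Vale.Agent.P082.Scope

open scoped InnerProductSpace
open Vale.Agent.P078.General Vale.Agent.P132.Homog

universe u v

variable {H : Type u} [NormedAddCommGroup H] [InnerProductSpace ℂ H] [CompleteSpace H]
variable {M : VonNeumannAlgebra H} {ι : Type v}

/-- Contractions living in the corners of orthogonal projections. -/
structure IsDiag (s : ι → H →L[ℂ] H) (T : ι → H →L[ℂ] H) : Prop where
  proj : ∀ i, IsStarProjection (s i)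
  orth : ∀ i j, i ≠ j → s i * s j = 0
  left : ∀ i, s i * T i = T i
  right : ∀ i, T i * s i = T i
  norm_le : ∀ i, ‖T i‖ ≤ 1

variable {s T T' : ι → H →L[ℂ] H}

namespace IsDiag

theorem norm_apply_le (h : IsDiag s T) (i : ι) (v : H) : ‖T i v‖ ≤ ‖s i v‖ := by
  conv_lhs => rw [← h.right i, mul_apply_eq_comp]
  exact ((T i).le_opNorm _).trans (mul_le_of_le_one_left (norm_nonneg _) (h.norm_le i))

theorem norm_sq_sum_le (h : IsDiag s T) (t : Finset ι) (v : H) :
    ‖∑ i ∈ t, T i v‖ ^ 2 ≤ ∑ i ∈ t, ‖s i v‖ ^ 2 := by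
  rw [norm_sq_sum_of_orth t (fun i => T i v) fun i _ j _ hij => by
    show ⟪T i v, T j v⟫_ℂ = 0
    rw [← h.left i, ← h.left j, mul_apply_eq_comp, mul_apply_eq_comp]
    exact inner_proj_orth (h.proj i) (h.orth i j hij) _ _]
  exact Finset.sum_le_sum fun i _ => pow_le_pow_left₀ (norm_nonneg _) (h.norm_apply_le i v) 2

theorem sum_sq_le (h : IsDiag s T) (t : Finset ι) (v : H) :
    ∑ i ∈ t, ‖s i v‖ ^ 2 ≤ ‖v‖ ^ 2 := by
  rw [← Finset.sum_attach]
  exact sum_sq_proj_le (ι := t) (p := fun i => s i.1) (fun i => h.proj i.1)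
    (fun i j hij => h.orth i.1 j.1 fun e => hij (Subtype.ext e)) v

theorem summable (h : IsDiag s T) (v : H) : Summable fun i => T i v := by
  have hs : Summable fun i => ‖s i v‖ ^ 2 :=
    summable_of_sum_le (fun i => sq_nonneg _) fun t => h.sum_sq_le t v
  rw [summable_iff_vanishing_norm]
  intro ε hε
  obtain ⟨t, ht⟩ := summable_iff_vanishing_norm.1 hs (ε ^ 2) (by positivity)
  refine ⟨t, fun t' ht' => ?_⟩
  have h1 := ht t' ht'
  rw [Real.norm_eq_abs, abs_of_nonneg (Finset.sum_nonneg fun i _ => sq_nonneg _)] at h1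
  exact lt_of_pow_lt_pow_left₀ 2 hε.le ((h.norm_sq_sum_le t' v).trans_lt h1)

/-- The sum of the family. -/
noncomputable def sum (h : IsDiag s T) : H →L[ℂ] H :=
  LinearMap.mkContinuous
    { toFun := fun v => ∑' i, T i v
      map_add' := fun v w => by simp only [map_add, (h.summable v).tsum_add (h.summable w)]
      map_smul' := fun c v => by
        simp only [map_smul, RingHom.id_apply, (h.summable v).tsum_const_smul] }
    1 fun v => by
      show ‖∑' i, T i v‖ ≤ 1 * ‖v‖
      rw [one_mul]
      refine le_of_tendsto (h.summable v).hasSum.norm (Filter.Eventually.of_forall fun t => ?_)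
      exact (pow_le_pow_iff_left₀ (norm_nonneg _) (norm_nonneg _) two_ne_zero).1
        ((h.norm_sq_sum_le t v).trans (h.sum_sq_le t v))

theorem sum_apply (h : IsDiag s T) (v : H) : h.sum v = ∑' i, T i v := rfl

theorem mul (h : IsDiag s T) (h' : IsDiag s T') : IsDiag s fun i => T i * T' i where
  proj := h.proj
  orth := h.orth
  left := fun i => by rw [← mul_assoc, h.left]
  right := fun i => by rw [mul_assoc, h'.right]
  norm_le := fun i => (norm_mul_le _ _).trans (mul_le_one₀ (h.norm_le i) (norm_nonneg _) (h'.norm_le i))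

theorem star (h : IsDiag s T) : IsDiag s fun i => Star.star (T i) where
  proj := h.proj
  orth := h.orth
  left := fun i => by
    have := congrArg Star.star (h.right i)
    rwa [star_mul, (h.proj i).isSelfAdjoint.star_eq] at this
  right := fun i => by
    have := congrArg Star.star (h.left i)
    rwa [star_mul, (h.proj i).isSelfAdjoint.star_eq] at this
  norm_le := fun i => by rw [norm_star]; exact h.norm_le i

theorem cross (h : IsDiag s T) (h' : IsDiag s T') {i j : ι} (hij : i ≠ j) : T i * T' j = 0 := by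
  rw [← h.right i, ← h'.left j, mul_assoc, ← mul_assoc (s i), h.orth i j hij, zero_mul, mul_zero]

theorem sum_mul (h : IsDiag s T) (h' : IsDiag s T') : h.sum * h'.sum = (h.mul h').sum := by
  refine ContinuousLinearMap.ext fun v => ?_
  rw [mul_apply_eq_comp, sum_apply h' v, h.sum.map_tsum (h'.summable v), sum_apply]
  refine tsum_congr fun i => ?_
  rw [sum_apply, tsum_eq_single i fun j hj => ?_]
  · rfl
  · rw [← mul_apply_eq_comp, h.cross h' hj]
    rfl

theorem inner_sum_right (h : IsDiag s T) (u v : H) : ⟪u, h.sum v⟫_ℂ = ∑' i, ⟪u, T i v⟫_ℂ := by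
  rw [sum_apply]
  exact (innerSL ℂ u).map_tsum (h.summable v)

theorem star_sum (h : IsDiag s T) : Star.star h.sum = h.star.sum := by
  refine ContinuousLinearMap.ext fun v => ext_inner_left ℂ fun u => ?_
  rw [ContinuousLinearMap.star_eq_adjoint, ContinuousLinearMap.adjoint_inner_right,
    inner_sum_right, ← inner_conj_symm, inner_sum_right, Complex.conj_tsum]
  refine tsum_congr fun i => ?_
  rw [inner_conj_symm, ContinuousLinearMap.star_eq_adjoint,
    ContinuousLinearMap.adjoint_inner_right]

theorem sum_mem (h : IsDiag s T) (hM : ∀ i, T i ∈ M) : h.sum ∈ M :=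
  mem_of_commute_commutant M fun y hy => ContinuousLinearMap.ext fun v => by
    rw [mul_apply_eq_comp, mul_apply_eq_comp, sum_apply, sum_apply, y.map_tsum (h.summable v)]
    exact tsum_congr fun i => congrArg (fun S : H →L[ℂ] H => S v)
      (VonNeumannAlgebra.mem_commutant_iff.1 hy _ (hM i)).symm

theorem mul_sum_left (h : IsDiag s T) {a : H →L[ℂ] H} (ha : ∀ i, a * T i = T i) :
    a * h.sum = h.sum :=
  ContinuousLinearMap.ext fun v => by
    rw [mul_apply_eq_comp, sum_apply, a.map_tsum (h.summable v)]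
    exact tsum_congr fun i => congrArg (fun S : H →L[ℂ] H => S v) (ha i)

end IsDiag

end Vale.Agent.P082.Scope
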