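import Vale.Agent.P082.Iface
import Vale.Agent.P082.Scope.Defs

/-!
# P082: amplification turns normal traces into tracial vectors
-/

namespace Vale.Agent.P082.Scope

open scoped InnerProductSpace ENNReal

universe u

variable {H : Type u} [NormedAddCommGroup H] [InnerProductSpace ℂ H] [CompleteSpace H]

variable (H) in
/-- The square summable sequences in `H`. -/
abbrev Seq : Type u := lp (fun _ : ℕ => H) 2

/-- Apply an operator in every coordinate. -/
noncomputable def amp (x : H →L[ℂ] H) : Seq H →L[ℂ] Seq H :=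
  LinearMap.mkContinuous
    { toFun := fun v => ⟨fun n => x (v n), by
        refine memℓp_gen ?_
        refine Summable.of_nonneg_of_le (fun n => by positivity) (fun n => ?_)
          (((lp.memℓp v).summable (by norm_num)).mul_left (‖x‖ ^ (2 : ℝ≥0∞).toReal))
        rw [← Real.mul_rpow (norm_nonneg _) (norm_nonneg _)]
        exact Real.rpow_le_rpow (norm_nonneg _) (x.le_opNorm _) (by norm_num)⟩
      map_add' := fun v w => lp.ext (funext fun n => map_add x (v n) (w n))
      map_smul' := fun c v => lp.ext (funext fun n => map_smul x c (v n)) }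
    ‖x‖ fun v => by
      refine (lp.norm_mono (y := (‖x‖ : ℂ) • v) (by norm_num) fun n => ?_).trans
        (le_of_eq (by rw [norm_smul, Complex.norm_real, norm_norm]))
      show ‖x (v n)‖ ≤ ‖(‖x‖ : ℂ) • v n‖
      rw [norm_smul, Complex.norm_real, norm_norm]
      exact x.le_opNorm _

omit [CompleteSpace H] in
@[simp]
theorem amp_apply (x : H →L[ℂ] H) (v : Seq H) (n : ℕ) : amp x v n = x (v n) := rfl

omit [CompleteSpace H] in
theorem amp_ext {A B : Seq H →L[ℂ] Seq H} (h : ∀ v n, A v n = B v n) : A = B :=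
  ContinuousLinearMap.ext fun v => lp.ext (funext fun n => h v n)

theorem norm_amp (x : H →L[ℂ] H) : ‖amp x‖ = ‖x‖ := by
  refine le_antisymm (LinearMap.mkContinuous_norm_le _ (norm_nonneg x) _)
    (x.opNorm_le_bound (norm_nonneg _) fun u => ?_)
  have h1 := (amp x).le_opNorm (lp.single 2 0 u)
  have h2 := lp.norm_apply_le_norm (by norm_num) (amp x (lp.single 2 0 u)) 0
  rw [amp_apply, lp.single_apply_self] at h2
  rw [lp.norm_single (by norm_num)] at h1
  exact h2.trans h1

theorem star_amp (x : H →L[ℂ] H) : star (amp x) = amp (star x) := by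
  refine ((ContinuousLinearMap.eq_adjoint_iff _ _).2 fun v w => ?_).symm
  rw [lp.inner_eq_tsum, lp.inner_eq_tsum]
  refine tsum_congr fun n => ?_
  rw [amp_apply, amp_apply, ContinuousLinearMap.star_eq_adjoint,
    ContinuousLinearMap.adjoint_inner_left]

variable (H) in
/-- `amp` as a star homomorphism. -/
noncomputable def ampHom : (H →L[ℂ] H) →⋆ₐ[ℂ] (Seq H →L[ℂ] Seq H) where
  toFun := amp
  map_one' := amp_ext fun v n => rfl
  map_mul' := fun x y => amp_ext fun v n => rfl
  map_zero' := amp_ext fun v n => rfl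
  map_add' := fun x y => amp_ext fun v n => rfl
  commutes' := fun c => amp_ext fun v n => by
    rw [Algebra.algebraMap_eq_smul_one, Algebra.algebraMap_eq_smul_one]
    rfl
  map_star' := fun x => (star_amp x).symm

theorem ampHom_apply (x : H →L[ℂ] H) : (ampHom H) x = amp x := rfl

/-- The amplified algebra. -/
noncomputable def ampAlg (M : VonNeumannAlgebra H) : VonNeumannAlgebra (Seq H) where
  toStarSubalgebra := M.toStarSubalgebra.map (ampHom H)
  centralizer_centralizer' := by
    refine Set.Subset.antisymm (fun T hT => ?_) Set.subset_centralizer_centralizer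
    set single : ℕ → H →L[ℂ] Seq H := fun i =>
      lp.singleContinuousLinearMap ℂ (fun _ : ℕ => H) 2 i
    set coord : ℕ → Seq H →L[ℂ] H := fun i => lp.evalCLM ℂ (fun _ : ℕ => H) 2 i
    set x := (coord 0).comp (T.comp (single 0)) with hx
    have hdiag : ∀ y ∈ M.commutant, amp y ∈ Set.centralizer
        (M.toStarSubalgebra.map (ampHom H) : Set (Seq H →L[ℂ] Seq H)) := by
      rintro y hy _ ⟨m, hm, rfl⟩
      show amp m * amp y = amp y * amp m
      rw [← ampHom_apply m, ← ampHom_apply y, ← map_mul, ← map_mul,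
        VonNeumannAlgebra.mem_commutant_iff.1 hy m hm]
    have hshift : ∀ i j, (single i).comp (coord j) ∈ Set.centralizer
        (M.toStarSubalgebra.map (ampHom H) : Set (Seq H →L[ℂ] Seq H)) := by
      rintro i j _ ⟨m, hm, rfl⟩
      refine amp_ext fun v n => ?_
      show m ((lp.single 2 i (v j) : Seq H) n) = (lp.single 2 i (m (v j)) : Seq H) n
      rcases eq_or_ne n i with rfl | hn
      · rw [lp.single_apply_self, lp.single_apply_self]
      · rw [lp.single_apply_ne _ _ _ hn, lp.single_apply_ne _ _ _ hn, map_zero]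
    have hTamp : T = amp x := by
      refine amp_ext fun v n => ?_
      have h1 := congrArg (fun S : Seq H →L[ℂ] Seq H => S v 0) (hT _ (hshift 0 n))
      change (lp.single 2 0 (T v n) : Seq H) 0 = T (lp.single 2 0 (v n)) 0 at h1
      rw [lp.single_apply_self] at h1
      rw [h1]
      rfl
    refine ⟨x, ?_, hTamp.symm⟩
    show x ∈ (M : Set (H →L[ℂ] H))
    rw [← VonNeumannAlgebra.centralizer_centralizer M]
    intro y hy
    refine ContinuousLinearMap.ext fun u => ?_
    have hy' : y ∈ M.commutant := VonNeumannAlgebra.mem_commutant_iff.2 fun m hm => hy m hm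
    have h1 := congrArg (fun S : Seq H →L[ℂ] Seq H => S (lp.single 2 0 u) 0) (hT _ (hdiag y hy'))
    simp only [hTamp, mul_apply_eq_comp, amp_apply, lp.single_apply_self] at h1
    exact h1

theorem mem_ampAlg {M : VonNeumannAlgebra H} {T : Seq H →L[ℂ] Seq H} :
    T ∈ ampAlg M ↔ ∃ x ∈ M, amp x = T := Iff.rfl

/-- Normal traces become tracial vectors. -/
theorem hasTracialVectors_ampAlg {M : VonNeumannAlgebra H} (hM : HasNormalTraces M) :
    HasTracialVectors (ampAlg M) := by
  refine ⟨{v : Seq H | ∀ y ∈ ampAlg M, ‖star y v‖ = ‖y v‖}, fun v hv => hv, fun Y hY h0 => ?_⟩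
  obtain ⟨y, hy, rfl⟩ := mem_ampAlg.1 hY
  by_contra hne
  have hy0 : y ≠ 0 := fun h => hne (by rw [h]; exact (map_zero (ampHom H)))
  obtain ⟨ξ, hξ, htr, n, hn⟩ := hM y hy hy0
  set v : Seq H := ⟨ξ, memℓp_gen (by simpa using hξ)⟩ with hv
  refine hn ?_
  have hsq : ∀ (z : H →L[ℂ] H), ‖amp z v‖ ^ 2 = ∑' k, ‖z (ξ k)‖ ^ 2 := fun z => by
    have h := lp.norm_rpow_eq_tsum (p := 2) (by norm_num) (amp z v)
    simpa [hv] using h
  have h1 := h0 v fun Z hZ => by
    obtain ⟨z, hz, rfl⟩ := mem_ampAlg.1 hZ
    rw [star_amp]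
    exact (pow_left_inj₀ (norm_nonneg _) (norm_nonneg _) two_ne_zero).1
      (by rw [hsq, hsq, htr z hz])
  exact congrArg (fun w : Seq H => w n) h1

/-- The isomorphism with the amplified algebra, as a map. -/
noncomputable def toAmp (M : VonNeumannAlgebra H) : Alg M →⋆ₐ[ℂ] Alg (ampAlg M) :=
  ((ampHom H).comp M.toStarSubalgebra.subtype).codRestrict _ fun x => ⟨x.1, x.2, rfl⟩

theorem toAmp_val (M : VonNeumannAlgebra H) (x : Alg M) :
    (toAmp M x : Seq H →L[ℂ] Seq H) = amp (x : H →L[ℂ] H) := rfl

theorem exists_units_ampAlg {M : VonNeumannAlgebra H} {K : ℕ}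
    (h : ∃ e : Fin K → Fin K → Alg M, IsUnits M e) :
    ∃ e : Fin K → Fin K → Alg (ampAlg M), IsUnits (ampAlg M) e := by
  obtain ⟨e, he⟩ := h
  refine ⟨fun a b => toAmp M (e a b), fun a b c d => ?_, fun a b => ?_, ?_⟩
  · rw [← map_mul, he.mul]
    split_ifs <;> simp
  · rw [← map_star, he.star_eq]
  · rw [← map_sum, he.sum, map_one]

/-- Vanishing cohomology comes back from the amplification. -/
theorem vanishes_of_ampAlg {M : VonNeumannAlgebra H} {n : ℕ} (h : Vanishes (ampAlg M) n) :
    Vanishes M n := by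
  set e : Alg M →L[ℂ] Alg (ampAlg M) := (toAmp M).toLinearMap.mkContinuous 1 fun x => by
    rw [one_mul]; exact le_of_eq (norm_amp _)
  have hbij : Function.Bijective (toAmp M) := by
    refine ⟨fun x y hxy => Subtype.ext (sub_eq_zero.1 (norm_eq_zero.1 ?_)), fun Y => ?_⟩
    · rw [← norm_amp, ← ampHom_apply, map_sub, ampHom_apply, ampHom_apply, ← toAmp_val,
        ← toAmp_val, hxy, sub_self, norm_zero]
    · obtain ⟨y, hy, hyY⟩ := mem_ampAlg.1 Y.2
      exact ⟨⟨y, hy⟩, Subtype.ext hyY⟩
  set d : Alg (ampAlg M) →L[ℂ] Alg M :=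
    (LinearEquiv.ofBijective (toAmp M).toLinearMap hbij).symm.toLinearMap.mkContinuous 1
      fun Y => by
        obtain ⟨x, rfl⟩ := hbij.2 Y
        show ‖(LinearEquiv.ofBijective (toAmp M).toLinearMap hbij).symm
          (LinearEquiv.ofBijective (toAmp M).toLinearMap hbij x)‖ ≤ 1 * ‖toAmp M x‖
        rw [LinearEquiv.symm_apply_apply, one_mul]
        exact le_of_eq (norm_amp _).symm
  have hde : ∀ x, d (toAmp M x) = x := fun x =>
    (LinearEquiv.ofBijective (toAmp M).toLinearMap hbij).symm_apply_apply x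
  have hed : ∀ Y, toAmp M (d Y) = Y := fun Y => by
    obtain ⟨x, rfl⟩ := hbij.2 Y
    rw [hde]
  intro f hf
  set F : Cochain (ampAlg M) (n + 1) :=
    e.compContinuousMultilinearMap (f.compContinuousLinearMap fun _ => d)
  have hdm : ∀ X Y, d (X * Y) = d X * d Y := fun X Y =>
    hbij.1 (by rw [hed, map_mul, hed, hed])
  have hF : ∀ A, hochDiff F A = toAmp M (hochDiff f fun i => d (A i)) := by
    intro A
    have hc : ∀ j : Fin (n + 1), (fun i => d (Fin.contractNth j.castSucc (· * ·) A i)) =
        Fin.contractNth j.castSucc (· * ·) fun i => d (A i) := fun j => by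
      funext i
      simp only [Fin.contractNth]
      split_ifs <;> simp [hdm]
    simp only [hochDiff, F, ContinuousLinearMap.compContinuousMultilinearMap_coe,
      Function.comp_apply, ContinuousMultilinearMap.compContinuousLinearMap_apply, map_add,
      map_sum, map_smul, map_mul, hc, hed]
    rfl
  obtain ⟨G, hG⟩ := h F fun A => by rw [hF, hf, map_zero]
  refine ⟨d.compContinuousMultilinearMap (G.compContinuousLinearMap fun _ => e), fun a => ?_⟩
  have h1 := congrArg d (hG fun i => toAmp M (a i))
  have h2 : d (F fun i => toAmp M (a i)) = f a := by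
    show d (toAmp M (f fun i => d (toAmp M (a i)))) = _
    simp only [hde]
  rw [← h2, h1]
  have hc : ∀ j : Fin n, (fun i => toAmp M (Fin.contractNth j.castSucc (· * ·) a i)) =
      Fin.contractNth j.castSucc (· * ·) fun i => toAmp M (a i) := fun j => by
    funext i
    simp only [Fin.contractNth]
    split_ifs <;> simp
  have he : ∀ x, e x = toAmp M x := fun x => rfl
  simp only [hochDiff, ContinuousLinearMap.compContinuousMultilinearMap_coe,
    Function.comp_apply, ContinuousMultilinearMap.compContinuousLinearMap_apply, map_add,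
    map_sum, map_smul, hdm, hde, he, hc]
  rfl

end Vale.Agent.P082.Scope
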