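import Vale.Agent.P082.Scope.Defs
import Vale.Agent.P132.Homog.Polar

/-!
# P082: halving a projection that is not abelian
-/

namespace Vale.Agent.P082.Scope

open scoped InnerProductSpace ComplexStarModule
open Vale.Agent.P078.General Vale.Agent.P132.Homog

universe u

variable {H : Type u} [NormedAddCommGroup H] [InnerProductSpace ℂ H] [CompleteSpace H]

variable {M : VonNeumannAlgebra H}

theorem smul_mem_vN {x : H →L[ℂ] H} (hx : x ∈ M) (c : ℂ) : c • x ∈ M :=
  SMulMemClass.smul_mem (s := M.toStarSubalgebra) c hx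

/-- If all corners `q M (r - q)` vanish then positive elements below `r` are central there. -/
theorem commute_of_corners {r : H →L[ℂ] H} (hr : IsStarProjection r)
    (hq : ∀ q ∈ M, IsStarProjection q → r * q = q → ∀ x ∈ M, q * x * (r - q) = 0)
    {h : H →L[ℂ] H} (hM : h ∈ M) (h0 : 0 ≤ h) (hhr : r * h = h)
    {b : H →L[ℂ] H} (hbM : b ∈ M) (hb1 : r * b = b) (hb2 : b * r = b) : h * b = b * h := by
  refine sub_eq_zero.1 (norm_le_zero_iff.1 (le_of_forall_pos_le_add fun δ' hδ' => ?_))
  set δ := δ' / (2 * ‖b‖ + 1) with hδdef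
  have hδ : 0 < δ := by positivity
  obtain ⟨n, E, C, g, hE, hEo, hsum, hC, hCM, hCn, hEn, hgM, hg, hgh, hgE, hghE⟩ :=
    exists_grid M hM h0 hδ
  have hEr : ∀ i, r * E i = E i := fun i => by
    conv_lhs => rw [← hghE i, hgh.eq, ← mul_assoc, ← mul_assoc, hhr]
    rw [← hgh.eq, hghE i]
  have hEb : ∀ i, Commute (E i) b := fun i => by
    have hs := hq _ (hE i).1 (hE i).2.1 (hEr i)
    have h1 : E i * b = E i * b * E i := by
      have := hs b hbM
      rwa [mul_sub, mul_assoc, hb2, sub_eq_zero] at this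
    have h2 : b * E i = E i * b * E i := by
      have := congrArg star (hs (star b) (star_mem hbM))
      simp only [star_mul, star_sub, star_star, star_zero, hr.isSelfAdjoint.star_eq,
        (hE i).2.1.isSelfAdjoint.star_eq] at this
      rw [sub_mul, ← mul_assoc r, hb1, sub_eq_zero] at this
      rw [this, mul_assoc]
    exact h1.trans h2.symm
  set D := h - ∑ i : Fin n, ((((i : ℕ) + 1 : ℝ) * δ : ℝ) : ℂ) • E i with hD
  have hCh : Commute C h := by
    rw [show C = 1 - ∑ i, E i from eq_sub_of_add_eq hsum]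
    exact (Commute.one_left h).sub_left (Commute.sum_left _ _ _ fun i _ => (hE i).2.2)
  have hCE : ∀ i, C * E i = 0 := fun i => by
    rw [show C = 1 - ∑ i, E i from eq_sub_of_add_eq hsum, sub_mul, one_mul, Finset.sum_mul,
      Finset.sum_eq_single i (fun j _ hj => hEo j i hj) (fun h => absurd (Finset.mem_univ i) h),
      (hE i).2.1.isIdempotentElem.eq, sub_self]
  have hDu : ∀ u, ‖D u‖ ≤ δ * ‖u‖ := by
    intro u
    set v : Option (Fin n) → H := fun o => o.elim (h (C u))
      (fun i => h (E i u) - ((((i : ℕ) + 1 : ℝ) * δ : ℝ) : ℂ) • E i u)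
    set w : Option (Fin n) → H := fun o => o.elim (C u) fun i => E i u
    have horthE : ∀ i j, i ≠ j → ⟪E i u, E j u⟫_ℂ = 0 := fun i j hij =>
      inner_proj_orth (hE i).2.1 (hEo i j hij) u u
    have horthC : ∀ i, ⟪C u, E i u⟫_ℂ = 0 := fun i => inner_proj_orth hC (hCE i) u u
    have hvC : v none = C (h u) := congrArg (fun T : H →L[ℂ] H => T u) hCh.eq.symm
    have hvE : ∀ i, v (some i) = E i (h u - ((((i : ℕ) + 1 : ℝ) * δ : ℝ) : ℂ) • u) := fun i => by
      rw [map_sub, map_smul]
      show h (E i u) - _ = _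
      rw [show h (E i u) = E i (h u) from congrArg (fun T : H →L[ℂ] H => T u) (hE i).2.2.eq.symm]
    have hsumv : D u = ∑ o, v o := by
      rw [Fintype.sum_option]
      show D u = h (C u) + ∑ i, (h (E i u) - _ • E i u)
      rw [Finset.sum_sub_distrib, ← map_sum, ← add_sub_assoc, ← map_add, ← sum_apply, ← add_apply,
        hsum, one_apply_eq_self, hD, sub_apply, sum_apply]
      rfl
    have hw : ‖u‖ ^ 2 = ∑ o, ‖w o‖ ^ 2 := by
      rw [← norm_sq_sum_of_orth Finset.univ w ?_]
      · rw [Fintype.sum_option]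
        show ‖u‖ ^ 2 = ‖C u + ∑ i, E i u‖ ^ 2
        rw [← sum_apply, ← add_apply, hsum, one_apply_eq_self]
      · rintro (_ | i) - (_ | j) - hij
        · exact absurd rfl hij
        · exact horthC j
        · exact inner_eq_zero_symm.1 (horthC i)
        · exact horthE i j fun h => hij (by rw [h])
    refine (pow_le_pow_iff_left₀ (norm_nonneg _) (by positivity) two_ne_zero).1 ?_
    rw [mul_pow, hw, hsumv, norm_sq_sum_of_orth Finset.univ v ?_, Finset.mul_sum]
    · refine Finset.sum_le_sum fun o _ => ?_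
      rw [← mul_pow]
      refine pow_le_pow_left₀ (norm_nonneg _) ?_ 2
      cases o with
      | none => exact hCn u
      | some i => exact hEn i u
    · rintro (_ | i) - (_ | j) - hij
      · exact absurd rfl hij
      · rw [hvC, hvE]; exact inner_proj_orth hC (hCE j) _ _
      · rw [hvC, hvE]; exact inner_eq_zero_symm.1 (inner_proj_orth hC (hCE i) _ _)
      · rw [hvE, hvE]; exact inner_proj_orth (hE i).2.1 (hEo i j fun h => hij (by rw [h])) _ _
  have hDn : ‖D‖ ≤ δ := D.opNorm_le_bound hδ.le hDu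
  have hdiff : h * b - b * h = D * b - b * D := by
    have hS : Commute (∑ i : Fin n, ((((i : ℕ) + 1 : ℝ) * δ : ℝ) : ℂ) • E i) b :=
      Commute.sum_left _ _ _ fun i _ => (hEb i).smul_left _
    rw [hD, sub_mul, mul_sub, hS.eq]
    abel
  rw [hdiff, zero_add]
  calc ‖D * b - b * D‖ ≤ ‖D‖ * ‖b‖ + ‖b‖ * ‖D‖ :=
        (norm_sub_le _ _).trans (add_le_add (norm_mul_le _ _) (norm_mul_le _ _))
    _ ≤ δ * (2 * ‖b‖ + 1) := by nlinarith [norm_nonneg b, norm_nonneg D]
    _ = δ' := div_mul_cancel₀ δ' (by positivity)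

/-- Some corner of a projection that is not abelian does not vanish. -/
theorem exists_corner (hna : NoAbelianProjection M) {r : H →L[ℂ] H} (hr : IsStarProjection r)
    (hrM : r ∈ M) (hr0 : r ≠ 0) :
    ∃ q ∈ M, IsStarProjection q ∧ r * q = q ∧ ∃ x ∈ M, q * x * (r - q) ≠ 0 := by
  by_contra hcon
  push Not at hcon
  obtain ⟨x, hx, y, hy, hne⟩ := hna r hrM hr hr0
  refine hne ?_
  have hcorn : ∀ z ∈ M, r * z * r ∈ M ∧ r * (r * z * r) = r * z * r ∧
      (r * z * r) * r = r * z * r := fun z hz =>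
    ⟨mul_mem (mul_mem hrM hz) hrM, by simp only [← mul_assoc, hr.isIdempotentElem.eq],
      by rw [mul_assoc, hr.isIdempotentElem.eq]⟩
  obtain ⟨hbM, hb1, hb2⟩ := hcorn y hy
  set b := r * y * r
  have hsa : ∀ z : H →L[ℂ] H, IsSelfAdjoint z → z ∈ M → (r * z * r) * b = b * (r * z * r) := by
    intro z hz hzM
    obtain ⟨haM, ha1, -⟩ := hcorn z hzM
    set c : ℂ := ((‖z‖ : ℝ) : ℂ) with hc
    have hpos : (0 : H →L[ℂ] H) ≤ r * (z + c • 1) * r := by
      have h1 : (0 : H →L[ℂ] H) ≤ z + c • 1 := by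
        have h := IsSelfAdjoint.neg_algebraMap_norm_le_self hz
        rw [Algebra.algebraMap_eq_smul_one, neg_le_iff_add_nonneg'] at h
        rwa [hc, Complex.coe_smul, add_comm]
      have h2 := star_left_conjugate_nonneg h1 r
      rwa [hr.isSelfAdjoint.star_eq] at h2
    obtain ⟨hM', h1', -⟩ := hcorn _ (add_mem hzM (smul_mem_vN (one_mem M) c))
    have h3 := commute_of_corners hr hcon hM' hpos h1' hbM hb1 hb2
    have e : r * (z + c • 1) * r = r * z * r + c • r := by
      rw [mul_add, add_mul, mul_smul_comm, mul_one, smul_mul_assoc, hr.isIdempotentElem.eq]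
    rw [e, add_mul, mul_add, smul_mul_assoc, mul_smul_comm, hb1, hb2] at h3
    exact add_right_cancel h3
  have e : x = (ℜ x : H →L[ℂ] H) + Complex.I • (ℑ x : H →L[ℂ] H) :=
    (realPart_add_I_smul_imaginaryPart x).symm
  have hre : (ℜ x : H →L[ℂ] H) ∈ M := by
    rw [realPart_apply_coe, ← Complex.coe_smul]
    exact smul_mem_vN (add_mem hx (star_mem hx)) _
  have him : (ℑ x : H →L[ℂ] H) ∈ M := by
    rw [imaginaryPart_apply_coe, ← Complex.coe_smul]
    exact smul_mem_vN (smul_mem_vN (sub_mem hx (star_mem hx)) _) _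
  rw [e, mul_add, add_mul, mul_smul_comm, smul_mul_assoc, add_mul, mul_add, smul_mul_assoc,
    mul_smul_comm, hsa _ (ℜ x).2 hre, hsa _ (ℑ x).2 him]

/-- A projection that is not abelian contains two orthogonal equivalent projections. -/
theorem exists_halve (hna : NoAbelianProjection M) {r : H →L[ℂ] H} (hr : IsStarProjection r)
    (hrM : r ∈ M) (hr0 : r ≠ 0) :
    ∃ u ∈ M, u ≠ 0 ∧ u * (star u * u) = u ∧ r * u = u ∧ u * r = u ∧ u * u = 0 := by
  obtain ⟨q, hqM, hq, hrq, x, hx, hne⟩ := exists_corner hna hr hrM hr0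
  have hqr : q * r = q := by
    have := congrArg star hrq
    simpa only [star_mul, hr.isSelfAdjoint.star_eq, hq.isSelfAdjoint.star_eq] using this
  set a := q * x * (r - q) with ha
  have haM : a ∈ M := mul_mem (mul_mem hqM hx) (sub_mem hrM hqM)
  obtain ⟨v, hv⟩ : ∃ v, a v ≠ 0 := by
    by_contra h
    push Not at h
    exact hne (ContinuousLinearMap.ext h)
  set δ := ‖a v‖ / (4 * (‖v‖ + 1)) with hδdef
  have hv0 : 0 < ‖a v‖ := norm_pos_iff.2 hv
  obtain ⟨n, w, hfam, hl, hrt, happ⟩ := exists_fam M haM (δ := δ) (by positivity)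
  have hex : ∃ i, w i ≠ 0 := by
    by_contra h
    push Not at h
    have h1 := happ v
    simp only [h, smul_zero, Finset.sum_const_zero, zero_apply, sub_zero] at h1
    have h3 : 2 * δ * ‖v‖ ≤ ‖a v‖ / 2 := by
      have : δ * (‖v‖ + 1) = ‖a v‖ / 4 := by rw [hδdef]; field_simp
      have hδ0 : 0 ≤ δ := by positivity
      nlinarith
    linarith
  obtain ⟨i, hi⟩ := hex
  have h1 : q * w i = w i := hl q (by rw [ha, ← mul_assoc, ← mul_assoc, hq.isIdempotentElem.eq]) i
  have hidem : (r - q) * (r - q) = r - q := by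
    simp only [mul_sub, sub_mul, hr.isIdempotentElem.eq, hq.isIdempotentElem.eq, hrq, hqr]
    abel
  have h2 : w i * (r - q) = w i := hrt (r - q) (by rw [ha, mul_assoc (q * x), hidem]) i
  have h0 : (r - q) * q = 0 := by rw [sub_mul, hrq, hq.isIdempotentElem.eq, sub_self]
  refine ⟨w i, hfam.mem i, hi, hfam.pi i, ?_, ?_, ?_⟩
  · rw [← h1, ← mul_assoc, hrq]
  · rw [← h2, mul_assoc, sub_mul, hr.isIdempotentElem.eq, hqr]
  · conv_lhs => arg 2; rw [← h1]
    conv_lhs => arg 1; rw [← h2]
    rw [mul_assoc, ← mul_assoc (r - q), h0, zero_mul, mul_zero]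

end Vale.Agent.P082.Scope
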